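import Vale.Agent.P198.C5.Lsc

/-!
# P198, Stage 2, block C4 (1): coefficient fields, energy inequality, affine conjugation
-/

namespace P198C4

open MeasureTheory Filter Topology Vale.Agent.P363.R.Sob P198C5
open scoped ContDiff InnerProductSpace Gradient

noncomputable section

/-- `γ` does not increase the energy of test functions with respect to the field `B`. -/
def ContrB (B : ℂ → ℂ →L[ℝ] ℂ) (γ : OpenPartialHomeomorph ℂ ℂ) : Prop :=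
  ∀ φ : ℂ → ℝ, Test φ → tsupport φ ⊆ γ.target → DLe B (tr γ φ) (En B (∇ φ))

/-- the affine homeomorphism `w ↦ x₀ + L w` -/
def aff (x₀ : ℂ) (L : ℂ ≃L[ℝ] ℂ) : ℂ ≃ₜ ℂ := L.toHomeomorph.trans (Homeomorph.addLeft x₀)

@[simp] theorem aff_apply (x₀ : ℂ) (L : ℂ ≃L[ℝ] ℂ) (w : ℂ) : aff x₀ L w = x₀ + L w := rfl

@[simp] theorem aff_symm_apply (x₀ : ℂ) (L : ℂ ≃L[ℝ] ℂ) (x : ℂ) :
    (aff x₀ L).symm x = L.symm (x - x₀) := by
  rw [Homeomorph.symm_apply_eq]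
  simp

/-- the adjoint of `L` -/
def Lt (L : ℂ ≃L[ℝ] ℂ) : ℂ →L[ℝ] ℂ := ContinuousLinearMap.adjoint (L : ℂ →L[ℝ] ℂ)

theorem inner_Lt (L : ℂ ≃L[ℝ] ℂ) (v w : ℂ) : (inner ℝ (Lt L v) w : ℝ) = inner ℝ v (L w) := by
  rw [Lt, ContinuousLinearMap.adjoint_inner_left]; rfl

theorem inner_Lt' (L : ℂ ≃L[ℝ] ℂ) (v w : ℂ) : (inner ℝ v (Lt L w) : ℝ) = inner ℝ (L v) w := by
  rw [real_inner_comm, inner_Lt, real_inner_comm]

/-- the inverse of the adjoint of `L` -/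
def Li (L : ℂ ≃L[ℝ] ℂ) : ℂ →L[ℝ] ℂ := Lt L.symm

theorem Li_Lt (L : ℂ ≃L[ℝ] ℂ) (v : ℂ) : Li L (Lt L v) = v := by
  refine ext_inner_right ℝ fun w => ?_
  rw [Li, inner_Lt, inner_Lt]; simp

theorem Lt_Li (L : ℂ ≃L[ℝ] ℂ) (v : ℂ) : Lt L (Li L v) = v := by
  refine ext_inner_right ℝ fun w => ?_
  rw [inner_Lt, Li, inner_Lt]; simp

/-! ### change of variables -/

/-- the Jacobian of `L` -/
def jac (L : ℂ ≃L[ℝ] ℂ) : ℝ := |(LinearMap.det ((L : ℂ →L[ℝ] ℂ) : ℂ →ₗ[ℝ] ℂ))|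

theorem det_ne_zero (L : ℂ ≃L[ℝ] ℂ) : LinearMap.det ((L : ℂ →L[ℝ] ℂ) : ℂ →ₗ[ℝ] ℂ) ≠ 0 := by
  have h : IsUnit (LinearMap.det ((L.toLinearEquiv : ℂ ≃ₗ[ℝ] ℂ) : ℂ →ₗ[ℝ] ℂ)) :=
    LinearEquiv.isUnit_det' _
  exact h.ne_zero

theorem jac_pos (L : ℂ ≃L[ℝ] ℂ) : 0 < jac L := abs_pos.2 (det_ne_zero L)

theorem map_aff (x₀ : ℂ) (L : ℂ ≃L[ℝ] ℂ) :
    Measure.map (aff x₀ L) (volume : Measure ℂ) = ENNReal.ofReal (jac L)⁻¹ • volume := by
  have h1 : (aff x₀ L : ℂ → ℂ) = (fun x => x₀ + x) ∘ (L : ℂ → ℂ) := rfl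
  rw [h1, ← Measure.map_map (by fun_prop) (L.continuous.measurable)]
  have h2 : Measure.map (L : ℂ → ℂ) (volume : Measure ℂ) = ENNReal.ofReal (jac L)⁻¹ • volume := by
    have := Measure.map_linearMap_addHaar_eq_smul_addHaar (volume : Measure ℂ) (det_ne_zero L)
    rw [abs_inv] at this
    exact this
  rw [h2, Measure.map_smul, (measurePreserving_add_left volume x₀).map_eq]

theorem integral_aff {E : Type*} [NormedAddCommGroup E] [NormedSpace ℝ E] (x₀ : ℂ)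
    (L : ℂ ≃L[ℝ] ℂ) (f : ℂ → E) : ∫ w, f (x₀ + L w) = (jac L)⁻¹ • ∫ x, f x := by
  have h := ((aff x₀ L).measurableEmbedding).integral_map (μ := volume) f
  rw [map_aff, integral_smul_measure, ENNReal.toReal_ofReal (inv_nonneg.2 (jac_pos L).le)] at h
  rw [h]; rfl

theorem memLp_aff {g : ℂ → ℂ} (hg : MemLp g 2 volume) (x₀ : ℂ) (L : ℂ ≃L[ℝ] ℂ) :
    MemLp (fun w => g (x₀ + L w)) 2 volume := by
  have h : MemLp g 2 (Measure.map (aff x₀ L) volume) := by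
    rw [map_aff]
    exact hg.smul_measure ENNReal.ofReal_ne_top
  exact ((aff x₀ L).measurableEmbedding.memLp_map_measure_iff).1 h

/-! ### weak gradients -/

theorem test_aff {φ : ℂ → ℝ} (h : Test φ) (x₀ : ℂ) (L : ℂ ≃L[ℝ] ℂ) :
    Test (fun x => φ ((aff x₀ L).symm x)) := by
  refine ⟨?_, ?_⟩
  · simp only [aff_symm_apply]
    exact h.1.comp (L.symm.contDiff.comp (contDiff_id.sub contDiff_const))
  · exact h.2.comp_homeomorph (aff x₀ L).symm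

theorem test_aff' {φ : ℂ → ℝ} (h : Test φ) (x₀ : ℂ) (L : ℂ ≃L[ℝ] ℂ) :
    Test (fun x => φ (aff x₀ L x)) := by
  refine ⟨?_, ?_⟩
  · simp only [aff_apply]
    exact h.1.comp (contDiff_const.add L.contDiff)
  · exact h.2.comp_homeomorph (aff x₀ L)

theorem fderiv_aff {φ : ℂ → ℝ} (h : Differentiable ℝ φ) (x₀ : ℂ) (L : ℂ ≃L[ℝ] ℂ) (w v : ℂ) :
    fderiv ℝ (fun x => φ (x₀ + L x)) w v = fderiv ℝ φ (x₀ + L w) (L v) := by
  have h1 : HasFDerivAt (fun x => x₀ + L x) (L : ℂ →L[ℝ] ℂ) w :=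
    (L.hasFDerivAt (x := w)).const_add x₀
  have h2 := ((h (x₀ + L w)).hasFDerivAt).comp w h1
  have h3 := h2.fderiv
  have h4 : (φ ∘ fun x => x₀ + L x) = fun x => φ (x₀ + L x) := rfl
  rw [h4] at h3
  rw [h3]; rfl

theorem gradient_aff {φ : ℂ → ℝ} (h : Differentiable ℝ φ) (x₀ : ℂ) (L : ℂ ≃L[ℝ] ℂ) (w : ℂ) :
    ∇ (fun x => φ (x₀ + L x)) w = Lt L (∇ φ (x₀ + L w)) := by
  refine ext_inner_right ℝ fun v => ?_
  have h1 : Differentiable ℝ (fun x => φ (x₀ + L x)) :=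
    h.comp ((differentiable_const _).add L.differentiable)
  rw [inner_gradient h1, inner_Lt, inner_gradient h, fderiv_aff h]

theorem wg_aff {u : ℂ → ℝ} {g : ℂ → ℂ} (h : WG u g) (x₀ : ℂ) (L : ℂ ≃L[ℝ] ℂ) :
    WG (fun w => u (x₀ + L w)) (fun w => Lt L (g (x₀ + L w))) := by
  refine ⟨(Lt L).comp_memLp' (memLp_aff h.1 x₀ L), fun φ h1 h2 v => ?_⟩
  set ψ : ℂ → ℝ := fun x => φ ((aff x₀ L).symm x) with hψ
  have hT : Test φ := ⟨h1, h2⟩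
  have hψT : Test ψ := test_aff hT x₀ L
  have e0 : ∀ w, ψ (x₀ + L w) = φ w := by
    intro w
    simp [hψ]
  have e1 : ∀ w, fderiv ℝ φ w v = fderiv ℝ ψ (x₀ + L w) (L v) := by
    intro w
    rw [← fderiv_aff hψT.differentiable]
    simp only [e0]
  have key := h.2 ψ hψT.1 hψT.2 (L v)
  have i1 := integral_aff x₀ L (fun x => u x * fderiv ℝ ψ x (L v))
  have i2 := integral_aff x₀ L (fun x => (inner ℝ (g x) (L v) : ℝ) * ψ x)
  calc ∫ w, u (x₀ + L w) * fderiv ℝ φ w v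
      = ∫ w, u (x₀ + L w) * fderiv ℝ ψ (x₀ + L w) (L v) := by simp only [e1]
    _ = (jac L)⁻¹ • ∫ x, u x * fderiv ℝ ψ x (L v) := i1
    _ = - ((jac L)⁻¹ • ∫ x, (inner ℝ (g x) (L v) : ℝ) * ψ x) := by rw [key, smul_neg]
    _ = - ∫ w, (inner ℝ (g (x₀ + L w)) (L v) : ℝ) * ψ (x₀ + L w) := by rw [i2]
    _ = - ∫ w, (inner ℝ (Lt L (g (x₀ + L w))) v : ℝ) * φ w := by
        simp only [e0, inner_Lt]

/-! ### fields -/

/-- the transported field `L⁻¹ B(x₀ + L w) L⁻ᵀ` -/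
def mv (x₀ : ℂ) (L : ℂ ≃L[ℝ] ℂ) (B : ℂ → ℂ →L[ℝ] ℂ) (w : ℂ) : ℂ →L[ℝ] ℂ :=
  ((L.symm : ℂ →L[ℝ] ℂ).comp (B (x₀ + L w))).comp (Li L)

theorem inner_mv (x₀ : ℂ) (L : ℂ ≃L[ℝ] ℂ) (B : ℂ → ℂ →L[ℝ] ℂ) (w v v' : ℂ) :
    (inner ℝ (mv x₀ L B w v) v' : ℝ) = inner ℝ (B (x₀ + L w) (Li L v)) (Li L v') := by
  simp only [mv, ContinuousLinearMap.comp_apply]
  rw [Li, inner_Lt']; rfl

theorem En_mv (x₀ : ℂ) (L : ℂ ≃L[ℝ] ℂ) (B : ℂ → ℂ →L[ℝ] ℂ) (g : ℂ → ℂ) :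
    En (mv x₀ L B) (fun w => Lt L (g (x₀ + L w))) = (jac L)⁻¹ * En B g := by
  unfold En
  rw [← smul_eq_mul, ← integral_aff x₀ L (fun x => (inner ℝ (B x (g x)) (g x) : ℝ))]
  simp only [inner_mv, Li_Lt]

/-- conjugation of a partial homeomorphism by the homeomorphism `A` -/
def conjA (A : ℂ ≃ₜ ℂ) (γ : OpenPartialHomeomorph ℂ ℂ) : OpenPartialHomeomorph ℂ ℂ :=
  (A.transOpenPartialHomeomorph γ).transHomeomorph A.symm

theorem conjA_apply (A : ℂ ≃ₜ ℂ) (γ : OpenPartialHomeomorph ℂ ℂ) (w : ℂ) :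
    conjA A γ w = A.symm (γ (A w)) := rfl

theorem conjA_source (A : ℂ ≃ₜ ℂ) (γ : OpenPartialHomeomorph ℂ ℂ) :
    (conjA A γ).source = A ⁻¹' γ.source := rfl

theorem conjA_target (A : ℂ ≃ₜ ℂ) (γ : OpenPartialHomeomorph ℂ ℂ) :
    (conjA A γ).target = A ⁻¹' γ.target := rfl

theorem conjA_symm (A : ℂ ≃ₜ ℂ) (γ : OpenPartialHomeomorph ℂ ℂ) :
    (conjA A γ).symm = conjA A γ.symm := rfl

theorem tr_conjA (A : ℂ ≃ₜ ℂ) (γ : OpenPartialHomeomorph ℂ ℂ) (φ : ℂ → ℝ) (w : ℂ) :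
    tr (conjA A γ) φ w = tr γ (fun x => φ (A.symm x)) (A w) := by
  by_cases h : A w ∈ γ.source
  · rw [tr_mem h, tr_mem (γ := conjA A γ) (by rw [conjA_source]; exact h), conjA_apply]
  · rw [tr_notMem h, tr_notMem (γ := conjA A γ) (by rw [conjA_source]; exact h)]

theorem tsupport_symm (A : ℂ ≃ₜ ℂ) (φ : ℂ → ℝ) :
    tsupport (fun x => φ (A.symm x)) = A.symm ⁻¹' tsupport φ :=
  tsupport_comp_eq_preimage φ A.symm

theorem ContrB.conj {B : ℂ → ℂ →L[ℝ] ℂ} {γ : OpenPartialHomeomorph ℂ ℂ} (h : ContrB B γ) (x₀ : ℂ)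
    (L : ℂ ≃L[ℝ] ℂ) : ContrB (mv x₀ L B) (conjA (aff x₀ L) γ) := by
  intro φ hφ hs
  have hT := test_aff hφ x₀ L
  have hsub : tsupport (fun x => φ ((aff x₀ L).symm x)) ⊆ γ.target := by
    rw [tsupport_symm]
    intro x hx
    have := hs hx
    rw [conjA_target] at this
    simpa using this
  obtain ⟨g, hg, hle⟩ := h _ hT hsub
  refine ⟨_, (wg_aff hg x₀ L).congr (Eventually.of_forall fun w => ?_) (EventuallyEq.refl _ _), ?_⟩
  · exact (tr_conjA (aff x₀ L) γ φ w).symm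
  · rw [En_mv]
    have e : ∇ φ = fun w => Lt L (∇ (fun x => φ ((aff x₀ L).symm x)) (x₀ + L w)) := by
      funext w
      rw [← gradient_aff hT.differentiable]
      congr 1
      funext x
      simp
    rw [e, En_mv]
    exact mul_le_mul_of_nonneg_left hle (inv_nonneg.2 (jac_pos L).le)

/-! ### multiplying the field by a constant -/

theorem En_smul (k : ℝ) (B : ℂ → ℂ →L[ℝ] ℂ) (g : ℂ → ℂ) :
    En (fun x => k • B x) g = k * En B g := by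
  unfold En
  rw [← integral_const_mul]
  simp only [smul_apply, real_inner_smul_left]

theorem ContrB.of_smul {k : ℝ} (hk : 0 < k) {B : ℂ → ℂ →L[ℝ] ℂ} {γ : OpenPartialHomeomorph ℂ ℂ}
    (h : ContrB (fun x => k • B x) γ) : ContrB B γ := by
  intro φ hφ hs
  obtain ⟨g, hg, hle⟩ := h φ hφ hs
  refine ⟨g, hg, ?_⟩
  rw [En_smul, En_smul] at hle
  exact le_of_mul_le_mul_left hle hk

/-- the homothety of ratio `r` -/
def Lr (r : ℝ) (hr : r ≠ 0) : ℂ ≃L[ℝ] ℂ :=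
  ContinuousLinearEquiv.equivOfInverse (r • ContinuousLinearMap.id ℝ ℂ)
    (r⁻¹ • ContinuousLinearMap.id ℝ ℂ) (fun x => by simp [hr])
    (fun x => by simp [hr])

theorem Lr_apply (r : ℝ) (hr : r ≠ 0) (w : ℂ) : Lr r hr w = r • w := rfl

theorem Lr_symm_apply (r : ℝ) (hr : r ≠ 0) (w : ℂ) : (Lr r hr).symm w = r⁻¹ • w := rfl

theorem Li_Lr (r : ℝ) (hr : r ≠ 0) (w : ℂ) : Li (Lr r hr) w = r⁻¹ • w := by
  refine ext_inner_right ℝ fun v => ?_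
  rw [Li, inner_Lt, Lr_symm_apply, real_inner_smul_right, real_inner_smul_left]

theorem ContrB.scale {B : ℂ → ℂ →L[ℝ] ℂ} {γ : OpenPartialHomeomorph ℂ ℂ} (h : ContrB B γ) (x₀ : ℂ)
    {r : ℝ} (hr : 0 < r) :
    ContrB (fun w => B (x₀ + r • w)) (conjA (aff x₀ (Lr r hr.ne')) γ) := by
  have h1 := h.conj x₀ (Lr r hr.ne')
  have hk : 0 < (r⁻¹) ^ 2 := by positivity
  refine ContrB.of_smul hk ?_
  convert h1 using 1
  funext w
  ext v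
  simp only [mv, ContinuousLinearMap.comp_apply, smul_apply, Li_Lr, Lr_apply,
    map_smul]
  rw [ContinuousLinearEquiv.coe_coe, Lr_symm_apply, smul_smul, sq]

end

end P198C4
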