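import Vale.Agent.P198.C4.Affine
import Mathlib.MeasureTheory.Covering.DensityTheorem

/-!
# P198, Stage 2, block C4 (2): Lebesgue points and passage to the limit in the energy inequality
-/

namespace P198C4

open MeasureTheory Filter Topology Vale.Agent.P363.R.Sob P198C5 Metric
open scoped ContDiff InnerProductSpace Gradient

noncomputable section

variable {lam Lam : ℝ} {B : ℂ → ℂ →L[ℝ] ℂ}

/-- `x₀` is a Lebesgue point of `B` (in the form used for zooms) -/
def LebPt (B : ℂ → ℂ →L[ℝ] ℂ) (x₀ : ℂ) : Prop :=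
  Tendsto (fun r : ℝ => ⨍ y in closedBall x₀ r, ‖B y - B x₀‖) (𝓝[>] 0) (𝓝 0)

theorem Fld.locallyIntegrable (hB : Fld lam Lam B) : LocallyIntegrable B volume := by
  rw [locallyIntegrable_iff]
  intro K hK
  exact Measure.integrableOn_of_bounded (M := Lam) hK.measure_lt_top.ne hB.meas
    (Eventually.of_forall fun x => hB.upper x)

theorem ae_lebPt (hB : Fld lam Lam B) : ∀ᵐ x₀ : ℂ, LebPt B x₀ := by
  have h := IsUnifLocDoublingMeasure.ae_tendsto_average_norm_sub (μ := (volume : Measure ℂ))
    (Fld.locallyIntegrable hB) 1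
  filter_upwards [h] with x hx
  refine hx (fun _ => x) (fun r => r) tendsto_id ?_
  filter_upwards [self_mem_nhdsWithin] with r hr
  rw [one_mul]
  exact mem_closedBall_self (le_of_lt hr)

theorem Fld.scale (hB : Fld lam Lam B) (x₀ : ℂ) {r : ℝ} (hr : 0 < r) :
    Fld lam Lam (fun w => B (x₀ + r • w)) := by
  refine ⟨?_, fun x v w => hB.symm _ v w, fun x v => hB.lower _ v, fun x => hB.upper _⟩
  have hm : Measure.map (aff x₀ (Lr r hr.ne')) (volume : Measure ℂ) ≪ volume := by
    rw [map_aff]
    exact Measure.smul_absolutelyContinuous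
  have hq : Measure.QuasiMeasurePreserving (aff x₀ (Lr r hr.ne')) (volume : Measure ℂ) volume :=
    ⟨(aff x₀ (Lr r hr.ne')).measurable, hm⟩
  exact hB.meas.comp_quasiMeasurePreserving hq

/-- the fields seen through the zoom converge in `L¹_loc` to the constant field. -/
theorem tendsto_zoom (hB : Fld lam Lam B) {x₀ : ℂ} (hx : LebPt B x₀) {ι : Type*} {l : Filter ι}
    {r : ι → ℝ} (hr : ∀ n, 0 < r n) (hr0 : Tendsto r l (𝓝 0)) (R : ℝ) :
    Tendsto (fun n => ∫ w in ball (0:ℂ) R, ‖B (x₀ + r n • w) - B x₀‖) l (𝓝 0) := by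
  rcases le_or_gt R 0 with hR | hR
  · have : ball (0 : ℂ) R = ∅ := ball_eq_empty.2 hR
    simp only [this, Measure.restrict_empty, integral_zero_measure]
    exact tendsto_const_nhds
  have hrR : Tendsto (fun n => r n * R) l (𝓝[>] 0) := by
    rw [tendsto_nhdsWithin_iff]
    refine ⟨?_, Eventually.of_forall fun n => mul_pos (hr n) hR⟩
    simpa using hr0.mul_const R
  have h1 : Tendsto (fun n => ⨍ y in closedBall x₀ (r n * R), ‖B y - B x₀‖) l (𝓝 0) :=
    hx.comp hrR
  have h2 := h1.const_mul (volume.real (closedBall (0 : ℂ) R))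
  rw [mul_zero] at h2
  refine squeeze_zero (fun n => integral_nonneg fun _ => norm_nonneg _) (fun n => ?_) h2
  -- compare
  have hne := (hr n).ne'
  set L := Lr (r n) hne with hL
  have hjac : jac L = (r n) ^ 2 := by
    rw [jac]
    have : ((L : ℂ →L[ℝ] ℂ) : ℂ →ₗ[ℝ] ℂ) = (r n) • LinearMap.id := by
      ext; rfl
    rw [this, LinearMap.det_smul, Complex.finrank_real_complex]
    simp
  have hpre : ∀ w, w ∈ closedBall (0:ℂ) R ↔ x₀ + L w ∈ closedBall x₀ (r n * R) := by
    intro w
    rw [mem_closedBall, mem_closedBall, dist_zero_right, hL, Lr_apply, dist_eq_norm,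
      add_sub_cancel_left, norm_smul, Real.norm_eq_abs, abs_of_pos (hr n)]
    exact (mul_le_mul_iff_right₀ (hr n)).symm
  have hint : IntegrableOn (fun w => ‖B (x₀ + r n • w) - B x₀‖) (closedBall (0:ℂ) R) volume := by
    refine Measure.integrableOn_of_bounded (M := 2 * Lam) measure_closedBall_lt_top.ne
      ((Fld.scale hB x₀ (hr n)).meas.sub aestronglyMeasurable_const).norm
      (Eventually.of_forall fun x => ?_)
    rw [norm_norm]
    exact (norm_sub_le _ _).trans (by linarith [hB.upper (x₀ + r n • x), hB.upper x₀])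
  have e1 : ∫ w in ball (0:ℂ) R, ‖B (x₀ + r n • w) - B x₀‖ ≤
      ∫ w in closedBall (0:ℂ) R, ‖B (x₀ + r n • w) - B x₀‖ :=
    setIntegral_mono_set hint (Eventually.of_forall fun _ => norm_nonneg _)
      (LE.le.eventuallyLE ball_subset_closedBall)
  refine e1.trans (le_of_eq ?_)
  rw [← integral_indicator measurableSet_closedBall]
  have e2 : (closedBall (0:ℂ) R).indicator (fun w => ‖B (x₀ + r n • w) - B x₀‖) =
      fun w => (closedBall x₀ (r n * R)).indicator (fun y => ‖B y - B x₀‖) (x₀ + L w) := by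
    funext w
    by_cases hw : w ∈ closedBall (0:ℂ) R
    · rw [Set.indicator_of_mem hw, Set.indicator_of_mem ((hpre w).1 hw)]; rfl
    · rw [Set.indicator_of_notMem hw, Set.indicator_of_notMem (fun h => hw ((hpre w).2 h))]
  rw [e2, integral_aff x₀ L (fun x => (closedBall x₀ (r n * R)).indicator
    (fun y => ‖B y - B x₀‖) x), integral_indicator measurableSet_closedBall, hjac,
    setAverage_eq]
  have e3 : volume.real (closedBall x₀ (r n * R)) =
      (r n) ^ 2 * volume.real (closedBall (0:ℂ) R) := by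
    rw [measureReal_def, measureReal_def,
      Measure.addHaar_closedBall_mul_of_pos (volume : Measure ℂ) x₀ (hr n) R,
      Complex.finrank_real_complex, ENNReal.toReal_mul, ENNReal.toReal_ofReal (by positivity)]
  have hv : volume.real (closedBall (0:ℂ) R) ≠ 0 := by
    rw [measureReal_def]
    exact (ENNReal.toReal_pos (measure_closedBall_pos volume _ hR).ne'
      measure_closedBall_lt_top.ne).ne'
  rw [e3, smul_eq_mul, smul_eq_mul]
  field_simp

/-- the (1)+(3) part of the convergence `γ' n → γ` seen through the zooms `w ↦ x₀ + r n • w`. -/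
structure ZConv {ι : Type*} (l : Filter ι) (x₀ : ℂ) (r : ι → ℝ)
    (γ' : ι → OpenPartialHomeomorph ℂ ℂ) (γ : OpenPartialHomeomorph ℂ ℂ) (φ : ℂ → ℝ) : Prop where
  supp : ∀ᶠ n in l, ∀ y ∈ tsupport φ, x₀ + r n • y ∈ (γ' n).target
  unif : TendstoUniformly
    (fun n w => (γ' n).source.indicator (fun x => φ ((r n)⁻¹ • (γ' n x - x₀))) (x₀ + r n • w))
    (γ.source.indicator (φ ∘ γ)) l

theorem fld_const (hB : Fld lam Lam B) (x₀ : ℂ) : Fld lam Lam (fun _ => B x₀) :=
  ⟨aestronglyMeasurable_const, fun _ v w => hB.symm _ v w, fun _ v => hB.lower _ v,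
    fun _ => hB.upper _⟩

theorem distrib_of_unif {ι : Type*} {l : Filter ι} {un : ι → ℂ → ℝ} {u : ℂ → ℝ}
    (hun : ∀ᶠ n in l, LocallyIntegrable (un n) volume) (hu : LocallyIntegrable u volume)
    (h : TendstoUniformly un u l) (φ : ℂ → ℝ) (hφ : Test φ) :
    Tendsto (fun n => ∫ x, un n x * φ x) l (𝓝 (∫ x, u x * φ x)) := by
  classical
  set vn : ι → ℂ → ℝ := fun n => if LocallyIntegrable (un n) volume then un n else u with hvn
  have h1 : ∀ n, LocallyIntegrable (vn n) volume := by
    intro n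
    by_cases hn : LocallyIntegrable (un n) volume
    · simp only [hvn, hn, if_true]
    · simp only [hvn, hn, if_false]; exact hu
  have h2 : ∀ᶠ n in l, vn n = un n := by
    filter_upwards [hun] with n hn
    simp only [hvn, hn, if_true]
  have h3 : ∀ K : Set ℂ, IsCompact K → TendstoUniformlyOn vn u l K := by
    intro K _
    refine (h.tendstoUniformlyOn (s := K)).congr ?_
    filter_upwards [h2] with n hn x _
    rw [hn]
  refine (distrib_of_locUnif h1 hu h3 φ hφ).congr' ?_
  filter_upwards [h2] with n hn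
  rw [hn]

/-- **Zoom at a Lebesgue point**: if all `γ' n` do not increase the energies of the field `B` and
the rescaled maps `w ↦ (γ' n (x₀ + r n w) - x₀) / r n` converge to `γ` then `γ` does not increase
the energies for the constant field `B x₀`. -/
theorem contrB_of_zoom (hlam : 0 < lam) (hB : Fld lam Lam B) {x₀ : ℂ} (hx : LebPt B x₀)
    {ι : Type*} {l : Filter ι} [l.NeBot] {r : ι → ℝ} (hr : ∀ n, 0 < r n) (hr0 : Tendsto r l (𝓝 0))
    {γ' : ι → OpenPartialHomeomorph ℂ ℂ} (hγ' : ∀ n, ContrB B (γ' n))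
    {γ : OpenPartialHomeomorph ℂ ℂ}
    (hconv : ∀ φ : ℂ → ℝ, Test φ → tsupport φ ⊆ γ.target → ZConv l x₀ r γ' γ φ) :
    ContrB (fun _ => B x₀) γ := by
  intro φ hφ hs
  obtain ⟨hsupp, hunif⟩ := hconv φ hφ hs
  set γn : ι → OpenPartialHomeomorph ℂ ℂ := fun n => conjA (aff x₀ (Lr (r n) (hr n).ne')) (γ' n)
    with hγn
  have hcontr : ∀ n, ContrB (fun w => B (x₀ + r n • w)) (γn n) := fun n => (hγ' n).scale x₀ (hr n)
  have htar : ∀ᶠ n in l, tsupport φ ⊆ (γn n).target := by
    filter_upwards [hsupp] with n hn y hy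
    exact hn y hy
  have htr : ∀ n w, tr (γn n) φ w = (γ' n).source.indicator
      (fun x => φ ((r n)⁻¹ • (γ' n x - x₀))) (x₀ + r n • w) := by
    intro n w
    rw [hγn, tr_conjA, aff_apply, Lr_apply, tr]
    by_cases h : x₀ + r n • w ∈ (γ' n).source
    · rw [Set.indicator_of_mem h, Set.indicator_of_mem h, Function.comp_apply, aff_symm_apply,
        Lr_symm_apply]
    · rw [Set.indicator_of_notMem h, Set.indicator_of_notMem h]
  have hu : LocallyIntegrable (tr γ φ) volume := (cc_of_test hφ hs).tr.loc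
  have hun : ∀ᶠ n in l, LocallyIntegrable (tr (γn n) φ) volume := by
    filter_upwards [htar] with n hn
    exact (cc_of_test hφ hn).tr.loc
  have hunif' : TendstoUniformly (fun n => tr (γn n) φ) (tr γ φ) l := by
    have e : (fun n => tr (γn n) φ) = (fun n w => (γ' n).source.indicator
      (fun x => φ ((r n)⁻¹ • (γ' n x - x₀))) (x₀ + r n • w)) := by
      funext n w
      exact htr n w
    rw [e]
    exact hunif
  have hdist := fun ψ hψ => distrib_of_unif hun hu hunif' ψ hψ
  have hA : ∀ n, Fld lam Lam (fun w => B (x₀ + r n • w)) := fun n => Fld.scale hB x₀ (hr n)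
  have hL1 := tendsto_zoom hB hx hr hr0
  refine DLe.of_tendsto (l := l) hlam hA (fld_const hB x₀) hL1
    (Mn := fun n => En (fun w => B (x₀ + r n • w)) (∇ φ)) ?_ ?_ hdist
  · filter_upwards [htar] with n hn
    exact hcontr n φ hφ hn
  · exact tendsto_En hA (fld_const hB x₀) hL1 (memLp_gradient hφ)

end

end P198C4
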