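import Vale.Agent.P198.C4.Fin
import Vale.Agent.P198.C4.Limit

/-!
# P198, Stage 2, block C4: the conformal chart

From a local chart `e` with an invariant measurable elliptic field `B` (output of ST) and the zoom
theorem (output of GC) to a global conformal chart.
-/

namespace P198C4

open Metric Set Filter Topology P198Q P198G P198S2 P198C5 MeasureTheory
open Vale.Agent.P363.R.Sob
open scoped ContDiff InnerProductSpace Gradient

variable {G Z : Type} [Group G] [MetricSpace Z] [MulAction G Z]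

/-- the local charts of the two interfaces -/
theorem lchart_of (e : OpenPartialHomeomorph Z ℂ) (he : P198S2.LChart e) {z : Z}
    (hz : z ∈ e.source) : ∃ ρ H : ℝ, P198G.LChart e z ρ 1 H ∧ closedBall z ρ ⊆ e.source := by
  obtain ⟨H, hH⟩ := he.qs 1
  obtain ⟨r, hr, hsub, hq⟩ := hH z hz
  have hcb : closedBall z (r / 2) ⊆ ball z r := closedBall_subset_ball (by linarith)
  refine ⟨r / 2, H, ⟨by positivity, ?_, ?_, ?_, ?_⟩, hcb.trans hsub⟩
  · exact e.continuousOn.mono (hcb.trans hsub)
  · exact e.injOn.mono (hcb.trans hsub)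
  · intro x hx y hy w hw h1
    rw [one_mul] at h1
    have := hq x (hcb hx) y (hcb hy) w (hcb hw) (by rwa [one_mul])
    rwa [norm_sub_rev (e y), norm_sub_rev (e w)]
  · have h1 : closedBall z (r / 2) ∈ 𝓝 z := closedBall_mem_nhds z (by positivity)
    rw [← e.map_nhds_eq hz]
    exact image_mem_map h1

/-- **The conformal chart.** -/
theorem exists_confChart [CompactSpace Z] [ConnectedSpace Z] (q : QM G Z) (hP : Planar Z)
    (hGC : GCStatement) (hc : ∀ g : G, Continuous (fun x : Z => g • x))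
    (e : OpenPartialHomeomorph Z ℂ) (he : P198S2.LChart e) {lam Lam : ℝ} (hlam : 0 < lam)
    {B : ℂ → ℂ →L[ℝ] ℂ} (hB : Fld lam Lam B) (hinv : ∀ g, ContrB B (P198S2.trans hc e g)) :
    ∃ F : Z ≃ₜ OnePoint ℂ, IsConfChart hc F := by
  -- a Lebesgue point in the target
  obtain ⟨x₀, hx₀, hleb⟩ : ∃ x₀ ∈ e.target, LebPt B x₀ := by
    have hne : e.target.Nonempty := by
      obtain ⟨z, hz⟩ := he.nonempty
      exact ⟨e z, e.map_source hz⟩
    have hpos : 0 < volume e.target := e.open_target.measure_pos volume hne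
    by_contra hcon
    push Not at hcon
    have h0 : volume e.target = 0 := by
      refine measure_mono_null ?_ (ae_lebPt hB)
      intro x hx
      exact hcon x hx
    exact hpos.ne' h0
  set z₀ : Z := e.symm x₀ with hz₀
  have hz₀s : z₀ ∈ e.source := e.map_target hx₀
  have hez : e z₀ = x₀ := e.right_inv hx₀
  obtain ⟨ρ, H, hL, hρ⟩ := lchart_of e he hz₀s
  obtain ⟨h, r, b, F, hz⟩ := hGC G Z q hP e z₀ ρ 1 H hL
  obtain ⟨S, hS⟩ := exists_sqrt hlam (B x₀) (fun v w => hB.symm x₀ v w) (fun v => hB.lower x₀ v)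
  obtain ⟨S', hS'⟩ := exists_adj S
  refine ⟨_, isConfChart_of_contr hc F S'.symm fun g => ?_⟩
  have hcB : ContrB (fun _ => B x₀) (finPart (F.symm.trans ((homeoOf hc g).trans F))) := by
    refine contrB_of_zoom (l := atTop) hlam hB hleb hz.r_pos hz.r_lim
      (γ' := fun n => P198S2.trans hc e ((h n)⁻¹ * g * h n)) (fun n => hinv _) ?_
    intro φ hφ hs
    obtain ⟨h1, -, h3⟩ := hconv hc e hz hρ g hφ.continuous hφ.2 hs
    rw [hez] at h1 h3
    exact ⟨h1, h3⟩
  exact contr_cj hS hS' fun φ h1 h2 h3 => hcB φ ⟨h1, h2⟩ h3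

end P198C4
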