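import Vale.Agent.P198.GC.Defs
import Vale.Agent.P198.S2.Interface

/-!
# P198, Stage 2, block C4 (c): convergence of the rescaled transition maps

`e` is a local chart, `Zoom e z₀ ρ h r b F` the output of block GC.  For `g : G` let
`γ_n = trans hc e ((h n)⁻¹ * g * h n)` and `Γ = finPart (F g F⁻¹)`.  For a continuous function `φ`
with compact support in the target of `Γ`, the rescaled functions `φ ∘ λ_n ∘ γ_n ∘ λ_n⁻¹`
(extended by zero) converge to `φ ∘ Γ` (extended by zero) uniformly on the plane, and all have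
their support in one compact set.
-/

namespace P198C4

open Metric Set Filter Topology P198Q P198G P198S2

section OnePt

/-- extension of a function by zero at infinity -/
noncomputable def ext0 (φ : ℂ → ℝ) : OnePoint ℂ → ℝ := fun x => OnePoint.elim x 0 φ

@[simp] theorem ext0_infty (φ : ℂ → ℝ) : ext0 φ OnePoint.infty = 0 := rfl

@[simp] theorem ext0_coe (φ : ℂ → ℝ) (w : ℂ) : ext0 φ (w : OnePoint ℂ) = φ w := rfl

theorem continuous_ext0 {φ : ℂ → ℝ} (h : Continuous φ) (hc : HasCompactSupport φ) :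
    Continuous (ext0 φ) := by
  rw [OnePoint.continuous_iff]
  refine ⟨?_, h⟩
  have h1 : (fun x : ℂ => ext0 φ (x : OnePoint ℂ)) =ᶠ[coclosedCompact ℂ] fun _ => (0 : ℝ) := by
    rw [coclosedCompact_eq_cocompact]
    have h2 : (tsupport φ)ᶜ ∈ cocompact ℂ := IsCompact.compl_mem_cocompact hc
    filter_upwards [h2] with x hx
    rw [ext0_coe]
    exact image_eq_zero_of_notMem_tsupport hx
  exact tendsto_const_nhds.congr' h1.symm

theorem isCompact_coe_image {K : Set ℂ} (hK : IsCompact K) :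
    IsCompact ((fun w : ℂ => (w : OnePoint ℂ)) '' K) := hK.image OnePoint.continuous_coe

theorem isCompact_coe_preimage {K : Set (OnePoint ℂ)} (hK : IsCompact K)
    (h : OnePoint.infty ∉ K) : IsCompact ((fun w : ℂ => (w : OnePoint ℂ)) ⁻¹' K) := by
  refine (OnePoint.isOpenEmbedding_coe.isInducing.isCompact_preimage_iff ?_).2 hK
  intro x hx
  have h1 : x ≠ OnePoint.infty := fun h' => h (h' ▸ hx)
  exact OnePoint.ne_infty_iff_exists.1 h1

end OnePt

section Source

variable {G Z : Type*} [Group G] [MetricSpace Z] [MulAction G Z]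
variable (hc : ∀ g : G, Continuous (fun x : Z => g • x)) (e : OpenPartialHomeomorph Z ℂ)

@[simp] theorem homeoOf_apply (g : G) (x : Z) : homeoOf hc g x = g • x := rfl

@[simp] theorem homeoOf_symm_apply (g : G) (x : Z) : (homeoOf hc g).symm x = g⁻¹ • x := rfl

theorem trans_apply (g : G) (x : ℂ) : P198S2.trans hc e g x = e (g • e.symm x) := rfl

theorem mem_trans_source (g : G) (x : ℂ) :
    x ∈ (P198S2.trans hc e g).source ↔ x ∈ e.target ∧ g • e.symm x ∈ e.source := by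
  simp [P198S2.trans]

theorem mem_trans_target (g : G) (x : ℂ) :
    x ∈ (P198S2.trans hc e g).target ↔ x ∈ e.target ∧ g⁻¹ • e.symm x ∈ e.source := by
  simp [P198S2.trans]

end Source

section FinPart

variable (Φ : OnePoint ℂ ≃ₜ OnePoint ℂ)

theorem coeP_apply (w : ℂ) : coeP w = (w : OnePoint ℂ) := rfl

theorem mem_coeP_target (x : OnePoint ℂ) : x ∈ coeP.target ↔ x ≠ OnePoint.infty := by
  rw [coeP, Topology.IsOpenEmbedding.toOpenPartialHomeomorph_target, mem_range]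
  rw [OnePoint.ne_infty_iff_exists]

theorem coeP_symm_coe (w : ℂ) : coeP.symm (w : OnePoint ℂ) = w := by
  have := coeP.left_inv (x := w) (by simp [coeP])
  rwa [coeP_apply] at this

theorem mem_finPart_source (w : ℂ) :
    w ∈ (finPart Φ).source ↔ Φ (w : OnePoint ℂ) ≠ OnePoint.infty := by
  rw [← mem_coeP_target, finPart, OpenPartialHomeomorph.trans_source,
    OpenPartialHomeomorph.trans_source]
  simp [coeP]

theorem mem_finPart_target (w : ℂ) :
    w ∈ (finPart Φ).target ↔ Φ.symm (w : OnePoint ℂ) ≠ OnePoint.infty := by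
  rw [← mem_coeP_target, finPart, OpenPartialHomeomorph.trans_target,
    OpenPartialHomeomorph.trans_target]
  simp [coeP]

theorem finPart_apply {w w' : ℂ} (h : Φ (w : OnePoint ℂ) = w') : finPart Φ w = w' := by
  change coeP.symm (Φ (coeP w)) = w'
  rw [coeP_apply, h, coeP_symm_coe]

/-- the function `φ ∘ Γ`, extended by zero -/
theorem indicator_finPart (φ : ℂ → ℝ) (w : ℂ) :
    (finPart Φ).source.indicator (φ ∘ finPart Φ) w = ext0 φ (Φ (w : OnePoint ℂ)) := by
  by_cases h : w ∈ (finPart Φ).source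
  · rw [indicator_of_mem h]
    obtain ⟨w', hw'⟩ := OnePoint.ne_infty_iff_exists.1 ((mem_finPart_source Φ w).1 h)
    rw [Function.comp_apply, finPart_apply Φ hw'.symm, ← hw', ext0_coe]
  · rw [indicator_of_notMem h]
    have h1 : Φ (w : OnePoint ℂ) = OnePoint.infty := by
      by_contra h2
      exact h ((mem_finPart_source Φ w).2 h2)
    rw [h1, ext0_infty]

end FinPart

section Main

variable {G Z : Type*} [Group G] [MetricSpace Z] [MulAction G Z]
variable (hc : ∀ g : G, Continuous (fun x : Z => g • x)) (e : OpenPartialHomeomorph Z ℂ)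
variable {z₀ : Z} {ρ : ℝ} {h : ℕ → G} {r : ℕ → ℝ} {b : Z} {F : Z ≃ₜ OnePoint ℂ}

/-- the point of `Z` with rescaled coordinate `w` -/
noncomputable def zn (e : OpenPartialHomeomorph Z ℂ) (z₀ : Z) (h : ℕ → G) (r : ℕ → ℝ) (n : ℕ)
    (w : ℂ) : Z := h n • e.symm (e z₀ + r n • w)

theorem zn_eq (hr : ∀ n, 0 < r n) {n : ℕ} {z : Z} {w : ℂ} (hz : (h n)⁻¹ • z ∈ e.source)
    (hw : (r n)⁻¹ • (e ((h n)⁻¹ • z) - e z₀) = w) :
    e z₀ + r n • w ∈ e.target ∧ zn e z₀ h r n w = z := by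
  have h1 : e z₀ + r n • w = e ((h n)⁻¹ • z) := by
    rw [← hw, smul_smul, mul_inv_cancel₀ (hr n).ne', one_smul]
    ring
  rw [zn, h1, e.left_inv hz]
  exact ⟨e.map_source hz, smul_inv_smul _ _⟩

theorem zn_near (hz : Zoom e z₀ ρ h r b F) (hρ : closedBall z₀ ρ ⊆ e.source) {L : Set ℂ}
    (hL : IsCompact L) {δ : ℝ} (hδ : 0 < δ) : ∀ᶠ n in atTop, ∀ w ∈ L,
      e z₀ + r n • w ∈ e.target ∧ dist (zn e z₀ h r n w) (F.symm (w : OnePoint ℂ)) < δ := by
  filter_upwards [hz.conv_inv L hL δ hδ] with n hn w hw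
  obtain ⟨z, h1, h2, h3⟩ := hn w hw
  have h4 : (r n)⁻¹ • (e ((h n)⁻¹ • z) - e z₀) = w := by
    rw [h2, ← Complex.real_smul, add_sub_cancel_left, smul_smul,
      inv_mul_cancel₀ (hz.r_pos n).ne', one_smul]
  obtain ⟨h5, h6⟩ := zn_eq e hz.r_pos (hρ h1) h4
  exact ⟨h5, by rw [h6]; exact h3⟩

theorem conv_near (hz : Zoom e z₀ ρ h r b F) (hρ : closedBall z₀ ρ ⊆ e.source) {K : Set Z}
    (hK : IsCompact K) (hb : b ∉ K) {ε : ℝ} (hε : 0 < ε) : ∀ᶠ n in atTop, ∀ z ∈ K,
      (h n)⁻¹ • z ∈ e.source ∧ ∃ w : ℂ, F z = (w : OnePoint ℂ) ∧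
        dist ((r n)⁻¹ • (e ((h n)⁻¹ • z) - e z₀)) w < ε := by
  filter_upwards [hz.conv K hK hb ε hε] with n hn z hz'
  obtain ⟨h1, w, h2, h3⟩ := hn z hz'
  refine ⟨hρ h1, w, h2, ?_⟩
  rw [dist_eq_norm]
  have : (r n)⁻¹ • (e ((h n)⁻¹ • z) - e z₀) = (e ((h n)⁻¹ • z) - e z₀) / (r n : ℂ) := by
    rw [Complex.real_smul, Complex.ofReal_inv]
    ring
  rw [this]; exact h3

/-- the rescaled transition function -/
noncomputable def wt (hc : ∀ g : G, Continuous (fun x : Z => g • x))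
    (e : OpenPartialHomeomorph Z ℂ) (z₀ : Z) (h : ℕ → G) (r : ℕ → ℝ) (g : G) (φ : ℂ → ℝ) (n : ℕ)
    (w : ℂ) : ℝ :=
  (P198S2.trans hc e ((h n)⁻¹ * g * h n)).source.indicator
    (fun x => φ ((r n)⁻¹ • (P198S2.trans hc e ((h n)⁻¹ * g * h n) x - e z₀))) (e z₀ + r n • w)

omit [MetricSpace Z] in
theorem conj_smul (n : ℕ) (g : G) (y : Z) :
    ((h n)⁻¹ * g * h n) • y = (h n)⁻¹ • (g • (h n • y)) := by
  rw [mul_smul, mul_smul]

theorem mem_source_iff (n : ℕ) (g : G) (w : ℂ) :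
    e z₀ + r n • w ∈ (P198S2.trans hc e ((h n)⁻¹ * g * h n)).source ↔
      e z₀ + r n • w ∈ e.target ∧ (h n)⁻¹ • (g • zn e z₀ h r n w) ∈ e.source := by
  rw [mem_trans_source, conj_smul, zn]

theorem wt_of_mem {n : ℕ} {g : G} {w : ℂ} {φ : ℂ → ℝ}
    (h1 : e z₀ + r n • w ∈ e.target) (h2 : (h n)⁻¹ • (g • zn e z₀ h r n w) ∈ e.source) :
    wt hc e z₀ h r g φ n w =
      φ ((r n)⁻¹ • (e ((h n)⁻¹ • (g • zn e z₀ h r n w)) - e z₀)) := by
  rw [wt, indicator_of_mem ((mem_source_iff hc e n g w).2 ⟨h1, h2⟩), trans_apply, conj_smul, zn]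

theorem wt_ne_zero {n : ℕ} {g : G} {w : ℂ} {φ : ℂ → ℝ} (h0 : wt hc e z₀ h r g φ n w ≠ 0) :
    e z₀ + r n • w ∈ e.target ∧ (h n)⁻¹ • (g • zn e z₀ h r n w) ∈ e.source ∧
      φ ((r n)⁻¹ • (e ((h n)⁻¹ • (g • zn e z₀ h r n w)) - e z₀)) ≠ 0 := by
  have h1 : e z₀ + r n • w ∈ (P198S2.trans hc e ((h n)⁻¹ * g * h n)).source := by
    by_contra h2
    exact h0 (indicator_of_notMem h2 _)
  obtain ⟨h2, h3⟩ := (mem_source_iff hc e n g w).1 h1
  refine ⟨h2, h3, ?_⟩
  rwa [wt_of_mem hc e h2 h3] at h0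

/-- **Convergence of the rescaled transition maps.** -/
theorem hconv [CompactSpace Z] (hz : Zoom e z₀ ρ h r b F) (hρ : closedBall z₀ ρ ⊆ e.source)
    (g : G) {φ : ℂ → ℝ} (hφ : Continuous φ) (hφc : HasCompactSupport φ)
    (hs : tsupport φ ⊆ (finPart (F.symm.trans ((homeoOf hc g).trans F))).target) :
    (∀ᶠ n in atTop, ∀ y ∈ tsupport φ,
      e z₀ + r n • y ∈ (P198S2.trans hc e ((h n)⁻¹ * g * h n)).target) ∧
    (∃ K : Set ℂ, IsCompact K ∧ ∀ᶠ n in atTop, ∀ w,
      e z₀ + r n • w ∈ (P198S2.trans hc e ((h n)⁻¹ * g * h n)).source →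
      φ ((r n)⁻¹ • (P198S2.trans hc e ((h n)⁻¹ * g * h n) (e z₀ + r n • w) - e z₀)) ≠ 0 → w ∈ K) ∧
    TendstoUniformly (fun n w => (P198S2.trans hc e ((h n)⁻¹ * g * h n)).source.indicator
      (fun x => φ ((r n)⁻¹ • (P198S2.trans hc e ((h n)⁻¹ * g * h n) x - e z₀))) (e z₀ + r n • w))
      ((finPart (F.symm.trans ((homeoOf hc g).trans F))).source.indicator
        (φ ∘ finPart (F.symm.trans ((homeoOf hc g).trans F)))) atTop := by
  set Φ := F.symm.trans ((homeoOf hc g).trans F) with hΦ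
  have hΦa : ∀ x, Φ x = F (g • F.symm x) := fun x => rfl
  have hΦs : ∀ x, Φ.symm x = F (g⁻¹ • F.symm x) := fun x => rfl
  -- the compact set `K̂`
  set K := tsupport φ with hK
  have hKc : IsCompact K := hφc
  set Kh : Set Z := F.symm '' ((fun w : ℂ => (w : OnePoint ℂ)) '' K) with hKh
  have hKhc : IsCompact Kh := (isCompact_coe_image hKc).image F.symm.continuous
  set O : Set Z := {z | F z ≠ OnePoint.infty ∧ F (g⁻¹ • z) ≠ OnePoint.infty} with hO
  have hOo : IsOpen O := by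
    have h1 : IsOpen {z : Z | F z ≠ OnePoint.infty} :=
      isOpen_ne_fun F.continuous continuous_const
    have h2 : IsOpen {z : Z | F (g⁻¹ • z) ≠ OnePoint.infty} :=
      isOpen_ne_fun (F.continuous.comp (hc g⁻¹)) continuous_const
    exact h1.inter h2
  have hKO : Kh ⊆ O := by
    rintro _ ⟨_, ⟨w, hw, rfl⟩, rfl⟩
    refine ⟨by simp, ?_⟩
    have := (mem_finPart_target Φ w).1 (hs hw)
    rwa [hΦs] at this
  obtain ⟨δ, hδ, hδO⟩ := hKhc.exists_cthickening_subset_open hOo hKO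
  set T : Set Z := cthickening δ Kh with hT
  have hTc : IsCompact T := isClosed_cthickening.isCompact
  have hbT : b ∉ T := fun hb => (hδO hb).1 hz.Fb
  set T' : Set Z := (fun z => g⁻¹ • z) '' T with hT'
  have hT'c : IsCompact T' := hTc.image (hc g⁻¹)
  have hbT' : b ∉ T' := by
    rintro ⟨z, hz1, hz2⟩
    have h1 := (hδO hz1).2
    simp only at hz2
    rw [hz2] at h1
    exact h1 hz.Fb
  have hmemT' : ∀ z, g • z ∈ T → z ∈ T' := fun z hz1 => ⟨g • z, hz1, inv_smul_smul _ _⟩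
  have hnear : ∀ {z : Z} {w : ℂ}, w ∈ K → dist z (F.symm (w : OnePoint ℂ)) < δ → z ∈ T := by
    intro z w hw hd
    refine mem_cthickening_of_dist_le z (F.symm (w : OnePoint ℂ)) δ Kh ?_ hd.le
    exact ⟨_, ⟨w, hw, rfl⟩, rfl⟩
  -- (1) targets
  have c1 : ∀ᶠ n in atTop, ∀ y ∈ K,
      e z₀ + r n • y ∈ (P198S2.trans hc e ((h n)⁻¹ * g * h n)).target := by
    filter_upwards [zn_near e hz hρ hKc hδ, conv_near e hz hρ hT'c hbT' one_pos] with n h1 h2 y hy
    obtain ⟨h3, h4⟩ := h1 y hy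
    rw [mem_trans_target]
    refine ⟨h3, ?_⟩
    have h5 : zn e z₀ h r n y ∈ T := hnear hy h4
    have h6 := (h2 (g⁻¹ • zn e z₀ h r n y) ⟨_, h5, rfl⟩).1
    have h7 : ((h n)⁻¹ * g * h n)⁻¹ • e.symm (e z₀ + r n • y) =
        (h n)⁻¹ • (g⁻¹ • zn e z₀ h r n y) := by
      rw [zn]
      simp only [mul_inv_rev, inv_inv, mul_smul]
    rw [h7]; exact h6
  -- (2) supports
  have key : ∀ᶠ n in atTop, ∀ w, wt hc e z₀ h r g φ n w ≠ 0 → g • zn e z₀ h r n w ∈ T := by
    filter_upwards [zn_near e hz hρ hKc hδ] with n h1 w hw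
    obtain ⟨h2, h3, h4⟩ := wt_ne_zero hc e hw
    set w' := (r n)⁻¹ • (e ((h n)⁻¹ • (g • zn e z₀ h r n w)) - e z₀) with hw'
    have h5 : w' ∈ K := by
      by_contra h6
      exact h4 (image_eq_zero_of_notMem_tsupport h6)
    have h6 := (zn_eq e hz.r_pos h3 hw'.symm).2
    have h7 := (h1 w' h5).2
    rw [h6] at h7
    exact hnear h5 h7
  set K2 : Set ℂ := (fun w : ℂ => (w : OnePoint ℂ)) ⁻¹' (F '' T') with hK2
  have hK2c : IsCompact K2 := by
    refine isCompact_coe_preimage (hT'c.image F.continuous) ?_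
    rintro ⟨z, hz1, hz2⟩
    rw [← hz.Fb] at hz2
    exact hbT' (F.injective hz2 ▸ hz1)
  set L : Set ℂ := cthickening 1 K2 with hL
  have hLc : IsCompact L := hK2c.cthickening
  have hLsub : K2 ⊆ L := self_subset_cthickening _
  have c2 : ∀ᶠ n in atTop, ∀ w, wt hc e z₀ h r g φ n w ≠ 0 → w ∈ L := by
    filter_upwards [key, conv_near e hz hρ hT'c hbT' one_pos] with n h1 h2 w hw
    have h3 := hmemT' _ (h1 w hw)
    obtain ⟨h4, w', h5, h6⟩ := h2 _ h3
    obtain ⟨h7, -, -⟩ := wt_ne_zero hc e hw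
    have h8 : (r n)⁻¹ • (e ((h n)⁻¹ • zn e z₀ h r n w) - e z₀) = w := by
      rw [zn, inv_smul_smul, e.right_inv h7, add_sub_cancel_left, smul_smul,
        inv_mul_cancel₀ (hz.r_pos n).ne', one_smul]
    rw [h8] at h6
    refine mem_cthickening_of_dist_le w w' 1 K2 ?_ h6.le
    exact ⟨_, h3, h5⟩
  refine ⟨c1, ⟨L, hLc, ?_⟩, ?_⟩
  · filter_upwards [c2] with n hn w h1 h2
    refine hn w ?_
    rw [wt, indicator_of_mem h1]
    exact h2
  -- (3) uniform convergence
  have hu : Continuous (fun z : Z => ext0 φ (F (g • z))) :=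
    (continuous_ext0 hφ hφc).comp (F.continuous.comp (hc g))
  have huu : UniformContinuous (fun z : Z => ext0 φ (F (g • z))) :=
    CompactSpace.uniformContinuous_of_continuous hu
  have hφu : UniformContinuous φ := hφc.uniformContinuous_of_continuous hφ
  rw [Metric.tendstoUniformly_iff]
  intro ε hε
  obtain ⟨η, hη, hφη⟩ := Metric.uniformContinuous_iff.1 hφu (ε / 2) (by positivity)
  obtain ⟨δ', hδ', huδ⟩ := Metric.uniformContinuous_iff.1 huu (ε / 2) (by positivity)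
  filter_upwards [key, c2, zn_near e hz hρ hLc hδ', conv_near e hz hρ hTc hbT hη] with
    n n1 n2 n3 n4 w
  change dist ((finPart Φ).source.indicator (φ ∘ finPart Φ) w) (wt hc e z₀ h r g φ n w) < ε
  rw [indicator_finPart, hΦa]
  by_cases hwL : w ∈ L
  · obtain ⟨h1, h2⟩ := n3 w hwL
    have h3 := huδ h2
    have h4 : dist (ext0 φ (F (g • zn e z₀ h r n w))) (wt hc e z₀ h r g φ n w) < ε / 2 := by
      by_cases hT1 : g • zn e z₀ h r n w ∈ T
      · obtain ⟨h5, w', h6, h7⟩ := n4 _ hT1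
        rw [wt_of_mem hc e h1 h5, h6, ext0_coe, dist_comm]
        exact hφη h7
      · have h5 : wt hc e z₀ h r g φ n w = 0 := by
          by_contra h6
          exact hT1 (n1 w h6)
        have h6 : ext0 φ (F (g • zn e z₀ h r n w)) = 0 := by
          rcases eq_or_ne (F (g • zn e z₀ h r n w)) OnePoint.infty with h7 | h7
          · rw [h7, ext0_infty]
          · obtain ⟨w', hw'⟩ := OnePoint.ne_infty_iff_exists.1 h7
            rw [← hw', ext0_coe]
            refine image_eq_zero_of_notMem_tsupport fun h8 => hT1 ?_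
            refine self_subset_cthickening _ ⟨_, ⟨w', h8, rfl⟩, ?_⟩
            simp only
            rw [hw', F.symm_apply_apply]
        rw [h5, h6, dist_self]
        positivity
    rw [dist_comm] at h3
    calc _ ≤ _ := dist_triangle _ _ _
      _ < ε / 2 + ε / 2 := add_lt_add h3 h4
      _ = ε := by ring
  · have h5 : wt hc e z₀ h r g φ n w = 0 := by
      by_contra h6
      exact hwL (n2 w h6)
    have h6 : ext0 φ (F (g • F.symm (w : OnePoint ℂ))) = 0 := by
      rcases eq_or_ne (F (g • F.symm (w : OnePoint ℂ))) OnePoint.infty with h7 | h7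
      · rw [h7, ext0_infty]
      · obtain ⟨w', hw'⟩ := OnePoint.ne_infty_iff_exists.1 h7
        rw [← hw', ext0_coe]
        refine image_eq_zero_of_notMem_tsupport fun h8 => hwL (hLsub ?_)
        have h9 : g • F.symm (w : OnePoint ℂ) ∈ T := by
          refine self_subset_cthickening _ ⟨_, ⟨w', h8, rfl⟩, ?_⟩
          simp only
          rw [hw', F.symm_apply_apply]
        exact ⟨_, hmemT' _ h9, by simp⟩
    rw [h5, h6, dist_self]
    exact hε

end Main

end P198C4
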