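import Vale.Agent.P198.C4.Conv
import Vale.Agent.P198.C5.HoloAnti
import Vale.Agent.P198.C5.Lin

/-!
# P198, Stage 2, block C4 (f): from energy inequalities to holomorphic maps

`Φ` is a homeomorphism of the Riemann sphere whose finite part, conjugated by a real-linear map
`T`, does not increase the Dirichlet integral, in both directions.  Then the conjugate of `Φ` by
`T` is holomorphic or antiholomorphic on the plane minus the preimage of infinity.
-/

namespace P198C4

open Metric Set Filter Topology P198S2 P198C5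
open scoped ComplexConjugate

/-! ### equivalent partial homeomorphisms -/

theorem contr_congr {γ γ' : OpenPartialHomeomorph ℂ ℂ} (h : γ ≈ γ') (hc : Contr γ) : Contr γ' := by
  intro φ h1 h2 h3
  have ht : γ.target = γ'.target := h.target_eq
  have := hc φ h1 h2 (h3.trans ht.symm.subset)
  have e : γ'.source.indicator (φ ∘ γ') = γ.source.indicator (φ ∘ γ) := by
    funext x
    by_cases hx : x ∈ γ.source
    · rw [indicator_of_mem hx, indicator_of_mem (h.source_eq ▸ hx), Function.comp_apply,
        Function.comp_apply, h.eqOn hx]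
    · have hx' : x ∉ γ'.source := h.source_eq ▸ hx
      rw [indicator_of_notMem hx, indicator_of_notMem hx']
  rw [e]; exact this

/-! ### the finite part -/

/-- the conjugate of `Φ` by `T` -/
noncomputable def conjS (T : ℂ ≃L[ℝ] ℂ) (Φ : OnePoint ℂ ≃ₜ OnePoint ℂ) :
    OnePoint ℂ ≃ₜ OnePoint ℂ :=
  T.toHomeomorph.onePointCongr.symm.trans (Φ.trans T.toHomeomorph.onePointCongr)

theorem lin_infty (T : ℂ ≃L[ℝ] ℂ) : T.toHomeomorph.onePointCongr OnePoint.infty = OnePoint.infty :=
  rfl

theorem lin_coe (T : ℂ ≃L[ℝ] ℂ) (w : ℂ) :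
    T.toHomeomorph.onePointCongr (w : OnePoint ℂ) = ((T w : ℂ) : OnePoint ℂ) := rfl

theorem lin_symm_coe (T : ℂ ≃L[ℝ] ℂ) (w : ℂ) :
    T.toHomeomorph.onePointCongr.symm (w : OnePoint ℂ) = ((T.symm w : ℂ) : OnePoint ℂ) := rfl

theorem lin_eq_infty (T : ℂ ≃L[ℝ] ℂ) (x : OnePoint ℂ) :
    T.toHomeomorph.onePointCongr x = OnePoint.infty ↔ x = OnePoint.infty := by
  conv_lhs => rw [← lin_infty T]
  exact T.toHomeomorph.onePointCongr.injective.eq_iff

theorem conjS_coe (T : ℂ ≃L[ℝ] ℂ) (Φ : OnePoint ℂ ≃ₜ OnePoint ℂ) (w : ℂ) :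
    conjS T Φ (w : OnePoint ℂ) =
      T.toHomeomorph.onePointCongr (Φ ((T.symm w : ℂ) : OnePoint ℂ)) := rfl

theorem conjS_symm (T : ℂ ≃L[ℝ] ℂ) (Φ : OnePoint ℂ ≃ₜ OnePoint ℂ) :
    (conjS T Φ).symm = conjS T Φ.symm := rfl

theorem finPart_conjS (T : ℂ ≃L[ℝ] ℂ) (Φ : OnePoint ℂ ≃ₜ OnePoint ℂ) :
    P198C5.cj T (finPart Φ) ≈ finPart (conjS T Φ) := by
  constructor
  · ext w
    rw [cj_source, mem_preimage]
    rw [mem_finPart_source, mem_finPart_source, conjS_coe, Ne, Ne, lin_eq_infty]
  · intro w hw
    change w ∈ (P198C5.cj T (finPart Φ)).source at hw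
    rw [cj_source, mem_preimage, mem_finPart_source] at hw
    obtain ⟨w', hw'⟩ := OnePoint.ne_infty_iff_exists.1 hw
    rw [cj_apply, finPart_apply Φ hw'.symm]
    symm
    apply finPart_apply
    rw [conjS_coe, ← hw', lin_coe]

theorem finPart_symm (Φ : OnePoint ℂ ≃ₜ OnePoint ℂ) : (finPart Φ).symm = finPart Φ.symm := by
  refine OpenPartialHomeomorph.ext _ _ (fun x => rfl) (fun x => rfl) ?_
  ext w
  rw [OpenPartialHomeomorph.symm_source, mem_finPart_target, mem_finPart_source]

theorem isPreconnected_finPart_source (Φ : OnePoint ℂ ≃ₜ OnePoint ℂ) :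
    IsPreconnected (finPart Φ).source := by
  rcases eq_or_ne (Φ.symm OnePoint.infty) OnePoint.infty with h | h
  · have : (finPart Φ).source = univ := by
      ext w
      rw [mem_finPart_source]
      simp only [mem_univ, iff_true]
      intro hw
      rw [← hw, Φ.symm_apply_apply, hw] at h
      exact OnePoint.coe_ne_infty w h
    rw [this]; exact isPreconnected_univ
  · obtain ⟨p, hp⟩ := OnePoint.ne_infty_iff_exists.1 h
    have : (finPart Φ).source = {p}ᶜ := by
      ext w
      rw [mem_finPart_source, mem_compl_iff, mem_singleton_iff, not_iff_not]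
      constructor
      · intro hw
        have h1 : (w : OnePoint ℂ) = Φ.symm OnePoint.infty := by rw [← hw, Φ.symm_apply_apply]
        rw [← hp] at h1
        exact OnePoint.coe_injective h1
      · rintro rfl
        rw [hp, Φ.apply_symm_apply]
    rw [this]
    exact (isConnected_compl_singleton_of_one_lt_rank
      (by rw [Complex.rank_real_complex]; exact Nat.one_lt_ofNat) p).isPreconnected

/-- holomorphic or antiholomorphic off the pole -/
theorem conjS_holo (T : ℂ ≃L[ℝ] ℂ) (Φ : OnePoint ℂ ≃ₜ OnePoint ℂ)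
    (h1 : Contr (P198C5.cj T (finPart Φ))) (h2 : Contr (P198C5.cj T (finPart Φ.symm))) :
    DifferentiableOn ℂ (finPart (conjS T Φ)) (finPart (conjS T Φ)).source ∨
      DifferentiableOn ℂ (fun z => conj (finPart (conjS T Φ) z)) (finPart (conjS T Φ)).source := by
  refine holo_or_anti (finPart (conjS T Φ)) (isPreconnected_finPart_source _)
    (contr_congr (finPart_conjS T Φ) h1) ?_
  rw [finPart_symm, conjS_symm]
  exact contr_congr (finPart_conjS T Φ.symm) h2

section Chart

variable {G Z : Type*} [Group G] [MetricSpace Z] [MulAction G Z]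

/-- the conformal chart obtained from `F` by the linear change of coordinates `T` -/
theorem isConfChart_of_contr (hc : ∀ g : G, Continuous (fun x : Z => g • x))
    (F : Z ≃ₜ OnePoint ℂ) (T : ℂ ≃L[ℝ] ℂ)
    (h : ∀ g : G, Contr (P198C5.cj T (finPart (F.symm.trans ((homeoOf hc g).trans F))))) :
    IsConfChart hc (F.trans T.toHomeomorph.onePointCongr) := by
  intro g φ h1 h2 h3
  have e : (F.trans T.toHomeomorph.onePointCongr).symm.trans
      ((homeoOf hc g).trans (F.trans T.toHomeomorph.onePointCongr)) =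
      conjS T (F.symm.trans ((homeoOf hc g).trans F)) := rfl
  rw [e] at h3 ⊢
  obtain ⟨w, hw, hle⟩ := contr_congr (finPart_conjS T _) (h g) φ h1 h2 h3
  refine ⟨w, hw, hle.trans (le_of_eq ?_)⟩
  refine MeasureTheory.integral_congr_ae (Eventually.of_forall fun x => ?_)
  have hd : Differentiable ℝ φ := h1.differentiable (by simp)
  have e2 : P198S2.grad φ x = gradient φ x := by
    rw [gradient_eq hd]
    apply Complex.ext <;> simp [P198S2.grad]
  simp only [e2, norm_gradient]

end Chart

end P198C4
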