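import Vale.Agent.P198.C4.Chart
import Vale.Agent.P198.GC.Main

/-!
# P198, Stage 2: `GC_Statement`

From an invariant measurable elliptic structure in a local chart to a global conformal chart.
-/

namespace P198C4

open Metric Set Filter Topology P198Q P198G P198S2 P198C5 MeasureTheory
open Vale.Agent.P363.R.Sob
open scoped ContDiff InnerProductSpace Gradient

/-- the field with matrix `(a b; b c)` -/
noncomputable def fieldOf (a b c : ℂ → ℝ) (x : ℂ) : ℂ →L[ℝ] ℂ :=
  a x • Complex.reCLM.smulRight (1 : ℂ) + b x • (Complex.reCLM.smulRight Complex.I +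
    Complex.imCLM.smulRight (1 : ℂ)) + c x • Complex.imCLM.smulRight Complex.I

theorem fieldOf_apply (a b c : ℂ → ℝ) (x v : ℂ) :
    fieldOf a b c x v = ⟨a x * v.re + b x * v.im, b x * v.re + c x * v.im⟩ := by
  apply Complex.ext
  · simp [fieldOf]
  · simp [fieldOf]

theorem inner_fieldOf (a b c : ℂ → ℝ) (x v w : ℂ) :
    (inner ℝ (fieldOf a b c x v) w : ℝ) =
      (a x * v.re + b x * v.im) * w.re + (b x * v.re + c x * v.im) * w.im := by
  rw [fieldOf_apply, Complex.inner]
  simp
  ring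

theorem inner_fieldOf_self (a b c : ℂ → ℝ) (x v : ℂ) :
    (inner ℝ (fieldOf a b c x v) v : ℝ) = qf (a x) (b x) (c x) v := by
  rw [inner_fieldOf, qf]; ring

theorem fld_fieldOf {a b c : ℂ → ℝ} {lam : ℝ} (hlam : 0 < lam) (ma : Measurable a)
    (mb : Measurable b) (mc : Measurable c)
    (lower : ∀ x v, lam * ‖v‖ ^ 2 ≤ qf (a x) (b x) (c x) v)
    (upper : ∀ x v, qf (a x) (b x) (c x) v ≤ lam⁻¹ * ‖v‖ ^ 2) :
    Fld lam lam⁻¹ (fieldOf a b c) := by
  have hl : 0 < lam⁻¹ := inv_pos.2 hlam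
  have hsymm : ∀ x v w, (inner ℝ (fieldOf a b c x v) w : ℝ) = inner ℝ v (fieldOf a b c x w) := by
    intro x v w
    rw [real_inner_comm (fieldOf a b c x w) v, inner_fieldOf, inner_fieldOf]
    ring
  refine ⟨?_, hsymm, fun x v => ?_, fun x => ?_⟩
  · exact (((ma.smul_const _).add (mb.smul_const _)).add (mc.smul_const _)).aestronglyMeasurable
  · rw [inner_fieldOf_self]; exact lower x v
  · refine ContinuousLinearMap.opNorm_le_bound _ hl.le fun v => ?_
    set w := fieldOf a b c x v with hw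
    have h1 : 0 ≤ (inner ℝ (fieldOf a b c x (v - lam • w)) (v - lam • w) : ℝ) := by
      rw [inner_fieldOf_self]
      exact le_trans (by positivity) (lower x _)
    have h2 : (inner ℝ (fieldOf a b c x (v - lam • w)) (v - lam • w) : ℝ) =
        qf (a x) (b x) (c x) v - 2 * lam * ‖w‖ ^ 2 + lam ^ 2 * qf (a x) (b x) (c x) w := by
      rw [map_sub, map_smul, inner_sub_left, inner_sub_right, inner_sub_right,
        real_inner_smul_left, real_inner_smul_left, real_inner_smul_right, real_inner_smul_right,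
        inner_fieldOf_self, hsymm x w v, ← hw, real_inner_self_eq_norm_sq,
        inner_fieldOf_self]
      ring
    have h3 := upper x v
    have h4 := upper x w
    rw [h2] at h1
    have h5 : lam ^ 2 * (lam⁻¹ * ‖w‖ ^ 2) = lam * ‖w‖ ^ 2 := by
      field_simp
    have h6 : lam ^ 2 * qf (a x) (b x) (c x) w ≤ lam * ‖w‖ ^ 2 := by
      rw [← h5]; gcongr
    have h7 : lam * ‖w‖ ^ 2 ≤ lam⁻¹ * ‖v‖ ^ 2 := by linarith
    have h8 : ‖w‖ ^ 2 ≤ (lam⁻¹ * ‖v‖) ^ 2 := by
      rw [mul_pow]
      calc ‖w‖ ^ 2 = lam⁻¹ * (lam * ‖w‖ ^ 2) := by field_simp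
        _ ≤ lam⁻¹ * (lam⁻¹ * ‖v‖ ^ 2) := by gcongr
        _ = _ := by ring
    exact le_of_sq_le_sq h8 (by positivity)

/-- **`GC_Statement`.** -/
theorem gc_statement : GC_Statement := by
  intro G Z _ _ _ _ _ q hP hc e he a b c lam hI
  have hB := fld_fieldOf hI.lam_pos hI.ma hI.mb hI.mc hI.lower hI.upper
  refine exists_confChart q hP gcStatement hc e he hI.lam_pos hB fun g φ hφ hs => ?_
  obtain ⟨w, hw, hle⟩ := hI.inv g φ hφ.1 hφ.2 hs
  refine ⟨w, hw, ?_⟩
  have e1 : En (fieldOf a b c) w = ∫ x, qf (a x) (b x) (c x) (w x) := by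
    unfold En
    simp only [inner_fieldOf_self]
  have e2 : En (fieldOf a b c) (∇ φ) = ∫ x, qf (a x) (b x) (c x) (P198S2.grad φ x) := by
    unfold En
    simp only [inner_fieldOf_self]
    refine integral_congr_ae (Eventually.of_forall fun x => ?_)
    have e3 : P198S2.grad φ x = ∇ φ x := by
      rw [gradient_eq hφ.differentiable]
      apply Complex.ext <;> simp [P198S2.grad]
    simp only [e3]
  rw [e1, e2]; exact hle

end P198C4
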